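import Mathlib

/-!
# P369: states, entropy, coherent states and the beam splitter on a Hilbert space with a number basis

`b` is an orthonormal basis of the `n`-mode Fock space indexed by the occupation numbers.
-/

namespace Vale.Agent.P369.Model

open scoped ENNReal InnerProductSpace

variable {n : ℕ} {H : Type} [NormedAddCommGroup H] [InnerProductSpace ℂ H]

/-- The matrix element `⟨a|T|c⟩`. -/
noncomputable def mel (b : HilbertBasis (Fin n → ℕ) ℂ H) (T : H →L[ℂ] H) (a c : Fin n → ℕ) : ℂ :=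
  ⟪b a, T (b c)⟫_ℂ

/-- A density operator: positive, with trace one. -/
def IsDensity (b : HilbertBasis (Fin n → ℕ) ℂ H) (T : H →L[ℂ] H) : Prop :=
  T.IsPositive ∧ HasSum (fun a => (mel b T a a).re) 1

/-- Finite mean photon number. -/
def FiniteMean (b : HilbertBasis (Fin n → ℕ) ℂ H) (T : H →L[ℂ] H) : Prop :=
  Summable fun a => ((∑ i, a i : ℕ) : ℝ) * (mel b T a a).re

/-- The von Neumann entropy `Tr (-T log T)` in nats, with values in `[0,∞]`. -/
noncomputable def vonNeumann [CompleteSpace H] (b : HilbertBasis (Fin n → ℕ) ℂ H) (T : H →L[ℂ] H) : ℝ≥0∞ :=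
  ∑' a, ENNReal.ofReal (mel b (cfc Real.negMulLog T) a a).re

/-- The entropy of a thermal mode with mean photon number `t`. -/
noncomputable def gTherm (t : ℝ) : ℝ := (t + 1) * Real.log (t + 1) - t * Real.log t

/-- The one-mode amplitude `⟨c,d|U_η|a,e⟩` of the beam splitter, from
`U_η a† U_η† = √η a† - √(1-η) b†` and `U_η b† U_η† = √(1-η) a† + √η b†`. -/
noncomputable def bsAmp (η : ℝ) (c d a e : ℕ) : ℝ :=
  if c + d = a + e then
    Real.sqrt (c.factorial * d.factorial / (a.factorial * e.factorial)) *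
      ∑ i ∈ Finset.range (a + 1), ∑ j ∈ Finset.range (e + 1),
        if i + j = c then
          (a.choose i : ℝ) * (e.choose j : ℝ) * Real.sqrt η ^ i * (-Real.sqrt (1 - η)) ^ (a - i) *
            Real.sqrt (1 - η) ^ j * Real.sqrt η ^ (e - j)
        else 0
  else 0

/-- The amplitude of the `n`-mode beam splitter. -/
noncomputable def bsAmpN (η : ℝ) (c d a e : Fin n → ℕ) : ℝ := ∏ i, bsAmp η (c i) (d i) (a i) (e i)

/-- The `d`-th term of the partial trace `⟨c| Tr_b U_η (A ⊗ B) U_η† |c'⟩`. -/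
noncomputable def bsTerm (η : ℝ) (b : HilbertBasis (Fin n → ℕ) ℂ H) (A B : H →L[ℂ] H)
    (c c' d : Fin n → ℕ) : ℂ :=
  ∑ a ∈ Fintype.piFinset fun i => Finset.range (c i + d i + 1),
    ∑ a' ∈ Fintype.piFinset fun i => Finset.range (c' i + d i + 1),
      ((bsAmpN η c d a (fun i => c i + d i - a i) * bsAmpN η c' d a' (fun i => c' i + d i - a' i) : ℝ) : ℂ)
        * mel b A a a' * mel b B (fun i => c i + d i - a i) (fun i => c' i + d i - a' i)

/-- `C` is the output state of the beam splitter on the inputs `A`, `B`. -/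
def IsBSOutput (η : ℝ) (b : HilbertBasis (Fin n → ℕ) ℂ H) (A B C : H →L[ℂ] H) : Prop :=
  IsDensity b C ∧ ∀ c c', HasSum (fun d => bsTerm η b A B c c' d) (mel b C c c')

/-- The vacuum state. -/
noncomputable def vac (b : HilbertBasis (Fin n → ℕ) ℂ H) : H →L[ℂ] H :=
  (innerSL ℂ (b 0)).smulRight (b 0)

/-- The number-basis coefficient `⟨a|z⟩` of the coherent state `|z⟩`. -/
noncomputable def cohCoef (z : Fin n → ℂ) (a : Fin n → ℕ) : ℂ :=
  ∏ k, (Real.exp (-(Complex.normSq (z k)) / 2) : ℂ) * z k ^ a k / (Real.sqrt (a k).factorial : ℂ)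

end Vale.Agent.P369.Model
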