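import Mathlib
import Vale.Agent.P369.Model.Defs
import Vale.Agent.P369.Classical.Measure

/-!
# P369: transport from an abstract Fock space to the sequence space
-/

namespace Vale.Agent.P369.Model

open scoped InnerProductSpace ComplexConjugate
open MeasureTheory

variable {n : ℕ} {H : Type} [NormedAddCommGroup H] [InnerProductSpace ℂ H] [CompleteSpace H]
  (b : HilbertBasis (Fin n → ℕ) ℂ H)

/-- An operator read on the sequence space. -/
noncomputable def toFock : (H →L[ℂ] H) ≃⋆ₐ[ℂ] Fock.Op n := b.repr.conjStarAlgEquiv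

/-- The same map as a star homomorphism. -/
noncomputable def toFockHom : (H →L[ℂ] H) →⋆ₐ[ℂ] Fock.Op n :=
  { (toFock b).toAlgEquiv.toAlgHom with map_star' := (toFock b).map_star' }

theorem isSelfAdjoint_toFock {T : H →L[ℂ] H} : IsSelfAdjoint (toFock b T) ↔ IsSelfAdjoint T := by
  rw [IsSelfAdjoint, IsSelfAdjoint, show star (toFock b T) = toFock b (star T) from ((toFock b).map_star' T).symm]
  exact (toFock b).toAlgEquiv.injective.eq_iff

omit [CompleteSpace H] in
theorem repr_basis (a : Fin n → ℕ) : b.repr (b a) = Fock.ket a := by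
  rw [b.repr_self, Fock.ket]

theorem symm_ket (a : Fin n → ℕ) : b.repr.symm (Fock.ket a) = b a := by
  rw [← repr_basis b a, LinearIsometryEquiv.symm_apply_apply]

theorem entry_toFock (T : H →L[ℂ] H) (a c : Fin n → ℕ) : Fock.entry (toFock b T) a c = mel b T a c := by
  rw [Fock.entry, mel, toFock, LinearIsometryEquiv.conjStarAlgEquiv_apply_apply, symm_ket,
    ← repr_basis b a, LinearIsometryEquiv.inner_map_map]

theorem isState_toFock (T : H →L[ℂ] H) : Fock.IsState (toFock b T) ↔ IsDensity b T := by
  unfold Fock.IsState IsDensity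
  simp only [entry_toFock]
  refine and_congr_left fun _ => ⟨fun h => ?_, fun h => ?_⟩
  · refine ContinuousLinearMap.isPositive_def'.2 ⟨?_, fun x => ?_⟩
    · exact (isSelfAdjoint_toFock b).1 h.isSelfAdjoint
    · have := (ContinuousLinearMap.isPositive_def'.1 h).2 (b.repr x)
      simpa [toFock, ContinuousLinearMap.reApplyInnerSelf] using this
  · refine ContinuousLinearMap.isPositive_def'.2 ⟨(isSelfAdjoint_toFock b).2 h.isSelfAdjoint, fun x => ?_⟩
    have := (ContinuousLinearMap.isPositive_def'.1 h).2 (b.repr.symm x)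
    simp only [ContinuousLinearMap.reApplyInnerSelf, toFock,
      LinearIsometryEquiv.conjStarAlgEquiv_apply_apply] at this ⊢
    have e := b.repr.inner_map_map (T (b.repr.symm x)) (b.repr.symm x)
    rw [LinearIsometryEquiv.apply_symm_apply] at e
    rwa [e]

theorem finitePhotons_toFock (T : H →L[ℂ] H) : Fock.FinitePhotons (toFock b T) ↔ FiniteMean b T := by
  unfold Fock.FinitePhotons FiniteMean Fock.photons
  simp only [entry_toFock]

theorem toFock_vac : toFock b (vac b) = Fock.vacuum n := by
  refine ContinuousLinearMap.ext fun x => ?_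
  have hz : (fun _ => 0 : Fin n → ℕ) = 0 := rfl
  rw [toFock, LinearIsometryEquiv.conjStarAlgEquiv_apply_apply, vac, Fock.vacuum, hz]
  simp only [ContinuousLinearMap.smulRight_apply, innerSL_apply_apply, map_smul, repr_basis]
  congr 1
  rw [← b.repr.inner_map_map (b 0), repr_basis, LinearIsometryEquiv.apply_symm_apply]

theorem continuous_toFock : Continuous (toFockHom b) := by
  show Continuous fun x : H →L[ℂ] H => b.repr.conjStarAlgEquiv x
  simp only [LinearIsometryEquiv.conjStarAlgEquiv_apply]
  exact continuous_const.clm_comp (continuous_id.clm_comp continuous_const)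

theorem entropy_toFock {T : H →L[ℂ] H} (hT : T.IsPositive) :
    Fock.entropy (toFock b T) = vonNeumann b T := by
  have hs : IsSelfAdjoint T := hT.isSelfAdjoint
  have e : toFockHom b (cfc Real.negMulLog T) = cfc Real.negMulLog (toFockHom b T) :=
    StarAlgHomClass.map_cfc (S := ℂ) (toFockHom b) Real.negMulLog T Real.continuous_negMulLog.continuousOn
      (continuous_toFock b) hs ((isSelfAdjoint_toFock b).2 hs)
  have e' : toFock b (cfc Real.negMulLog T) = cfc Real.negMulLog (toFock b T) := e
  rw [Fock.entropy, vonNeumann, ← e']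
  simp only [entry_toFock]

theorem outTerm_toFock (η : ℝ) (A B : H →L[ℂ] H) (c c' d : Fin n → ℕ) :
    Fock.outTerm η (toFock b A) (toFock b B) c c' d = bsTerm η b A B c c' d := by
  unfold Fock.outTerm bsTerm
  simp only [entry_toFock]
  rfl

theorem isOutput_toFock (η : ℝ) (A C : H →L[ℂ] H) :
    Fock.IsOutput η (toFock b A) (Fock.vacuum n) (toFock b C) ↔ IsBSOutput η b A (vac b) C := by
  rw [← toFock_vac b]
  unfold Fock.IsOutput IsBSOutput
  simp only [isState_toFock, entry_toFock, outTerm_toFock]

/-- EPnI with a vacuum second input for P-classical states, on any Fock space. -/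
theorem epni_classical {η : ℝ} (h0 : 0 ≤ η) (h1 : η ≤ 1) (μ : Measure (Fin n → ℂ)) [IsProbabilityMeasure μ]
    {A : H →L[ℂ] H} (hA : IsDensity b A) (hE : FiniteMean b A)
    (hent : ∀ a c, mel b A a c = ∫ z, cohCoef z a * conj (cohCoef z c) ∂μ) :
    (∃ C, IsBSOutput η b A (vac b) C) ∧
      ∀ C, IsBSOutput η b A (vac b) C → FiniteMean b C ∧
        ∀ N : ℝ, 0 ≤ N → ENNReal.ofReal (n * gTherm N) ≤ vonNeumann b A →
          ENNReal.ofReal (n * gTherm (η * N)) ≤ vonNeumann b C := by
  have hA' := (isState_toFock b A).2 hA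
  have hE' := (finitePhotons_toFock b A).2 hE
  have hent' : ∀ a c, Fock.entry (toFock b A) a c
      = ∫ z, Classical.cv z a * conj (Classical.cv z c) ∂μ := fun a c => by
    rw [entry_toFock, hent]
    rfl
  constructor
  · obtain ⟨R, hR⟩ := Fock.exists_output h0 h1 hA'
    refine ⟨(toFock b).symm R, (isOutput_toFock b η A _).1 ?_⟩
    rwa [StarAlgEquiv.apply_symm_apply]
  · intro C hC
    have hC' := (isOutput_toFock b η A C).2 hC
    refine ⟨(finitePhotons_toFock b C).1 (Fock.finitePhotons_output h0 h1 hA' hE' hC'), fun N hN hS => ?_⟩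
    rw [← entropy_toFock b hA.1] at hS
    rw [← entropy_toFock b hC.1.1]
    exact Classical.epni_measure h0 h1 hA' hE' hent' hC' hN hS

end Vale.Agent.P369.Model
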